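import Vale.Agent.P139.H836.Main

open MeasureTheory ProbabilityTheory
open scoped ENNReal

namespace Vale.Agent.Results.P139.AlmostSureLifespan

open Vale.Agent.P139.A

/-- (1) The tail bound for the lifespan and the almost sure lower bound `c 2^{α/2}`. (2) The almost
sure lower bound `c 2^α` for the lifespan, with the doubled exponent. -/
theorem result (d p k : ℕ) (_hd : 1 ≤ d) (hp : Odd p) (hp3 : 3 ≤ p) (_hk : d < 2 * k) :
    (∀ θ : ℝ, θ < 1 / 2 →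
      ∃ κ : ℝ, 0 < κ ∧ ∃ α₁ : ℝ,
        ∀ (Ω : Type) [MeasurableSpace Ω] (P : Measure Ω) [IsProbabilityMeasure P]
          (g : (Fin d → ℤ) → Ω → ℂ), (∀ n, Measurable (g n)) → iIndepFun g P →
          (∀ n, P.map (g n) = stdComplexGaussian) →
          (∀ α : ℝ, α₁ ≤ α →
            P {ω | lifespan d p k (datum g α ω) < ENNReal.ofReal ((2 : ℝ) ^ (θ * α))}
              ≤ ENNReal.ofReal (Real.exp (-(2 : ℝ) ^ (κ * α)))) ∧
          (∀ᵐ ω ∂P, ∃ c : ℝ, 0 < c ∧ ∃ α₂ : ℝ, ∀ α : ℝ, α₂ ≤ α →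
            ENNReal.ofReal (c * (2 : ℝ) ^ (α / 2)) ≤ lifespan d p k (datum g α ω))) ∧
    (∀ (Ω : Type) [MeasurableSpace Ω] (P : Measure Ω) [IsProbabilityMeasure P]
      (g : (Fin d → ℤ) → Ω → ℂ), (∀ n, Measurable (g n)) → iIndepFun g P →
      (∀ n, P.map (g n) = stdComplexGaussian) →
      ∀ᵐ ω ∂P, ∃ c : ℝ, 0 < c ∧ ∃ α₂ : ℝ, ∀ α : ℝ, α₂ ≤ α →
        ENNReal.ofReal (c * (2 : ℝ) ^ α) ≤ lifespan d p k (datum g α ω)) := by
  refine ⟨fun θ hθ => ?_, fun Ω _ P _ g hm _ hg => ?_⟩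
  · obtain ⟨κ, hκ, α₁, h⟩ := Vale.Agent.P139.tail_main (d := d) hp hp3 k hθ
    refine ⟨κ, hκ, α₁, ?_⟩
    intro Ω _ P _ g hm _ hg
    refine ⟨fun α hα => h P g hm hg α hα, ?_⟩
    filter_upwards [main P hp hp3 k g hm hg] with ω ⟨c, hc, α₂, h2⟩
    exact ⟨c, hc, α₂, fun α hα => h2 α hα⟩
  · filter_upwards [Vale.Agent.P139.H836.main3 P hp hp3 k g hm hg] with ω ⟨c, hc, α₂, h2⟩
    exact ⟨c, hc, α₂, fun α hα => h2 α hα⟩

end Vale.Agent.Results.P139.AlmostSureLifespan
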