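import Vale.Agent.P139.H203.Main
import Vale.Agent.P139.Q836.Top

open Set MeasureTheory ProbabilityTheory
open scoped ENNReal

namespace Vale.Agent.Results.P139.WholeLife

open Vale.Agent.P139.A

/-- Let `d ≥ 2` (every energy-supercritical pair has `d ≥ 3`), `p ≥ 3` odd and `2k > d`.
1. For `θ < 1` the lifespan is shorter than `2^{θα}` with probability at most `2^{-κα}`, and at
   most `exp(-2^{κα})` if `θ < 1/2`.
2. Almost surely, for all large `α`: the lifespan is at least `c 2^α`, every solution stays, during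
   its whole life, `C 2^{-α}`-close (squared `H^1` distance) to the circle of the constants of
   modulus `|g_0|`, and up to the time `c 2^α` in the same sense for the squared `H^k` distance.
3. For every `α > k + d` and every `T` the lifespan is at least `T` with positive probability.
4. Solutions in `C([0,T]; H^k)` are unique. -/
theorem result (d p k : ℕ) (hd : 2 ≤ d) (hp : Odd p) (hp3 : 3 ≤ p) (hk : d < 2 * k) :
    ((∀ θ : ℝ, θ < 1 → ∃ κ : ℝ, 0 < κ ∧ ∃ α₁ : ℝ,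
        ∀ (Ω : Type) [MeasurableSpace Ω] (P : Measure Ω) [IsProbabilityMeasure P]
          (g : (Fin d → ℤ) → Ω → ℂ), (∀ n, Measurable (g n)) → iIndepFun g P →
          (∀ n, P.map (g n) = stdComplexGaussian) → ∀ α : ℝ, α₁ ≤ α →
            P {ω | lifespan d p k (datum g α ω) < ENNReal.ofReal ((2 : ℝ) ^ (θ * α))}
              ≤ ENNReal.ofReal ((2 : ℝ) ^ (-(κ * α)))) ∧
      (∀ θ : ℝ, θ < 1 / 2 → ∃ κ : ℝ, 0 < κ ∧ ∃ α₁ : ℝ,
        ∀ (Ω : Type) [MeasurableSpace Ω] (P : Measure Ω) [IsProbabilityMeasure P]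
          (g : (Fin d → ℤ) → Ω → ℂ), (∀ n, Measurable (g n)) → iIndepFun g P →
          (∀ n, P.map (g n) = stdComplexGaussian) → ∀ α : ℝ, α₁ ≤ α →
            P {ω | lifespan d p k (datum g α ω) < ENNReal.ofReal ((2 : ℝ) ^ (θ * α))}
              ≤ ENNReal.ofReal (Real.exp (-(2 : ℝ) ^ (κ * α))))) ∧
    (∀ (Ω : Type) [MeasurableSpace Ω] (P : Measure Ω) [IsProbabilityMeasure P]
        (g : (Fin d → ℤ) → Ω → ℂ), (∀ n, Measurable (g n)) → iIndepFun g P →
        (∀ n, P.map (g n) = stdComplexGaussian) →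
        (∀ᵐ ω ∂P, ∃ c : ℝ, 0 < c ∧ ∃ C : ℝ, ∃ α₂ : ℝ, ∀ α : ℝ, α₂ ≤ α →
          ENNReal.ofReal (c * (2 : ℝ) ^ α) ≤ lifespan d p k (datum g α ω) ∧
          ∀ (T : ℝ) (u : ℝ → (Fin d → ℤ) → ℂ), IsSolution d p k T u → u 0 = datum g α ω →
            ∀ t ∈ Icc 0 T, ∃ w : ℂ, ‖w‖ = 1 ∧
              sobolevSq 1 (fun n => u t n - if n = 0 then w * g 0 ω else 0)
                ≤ C * (2 : ℝ) ^ (-α) ∧
              (t ≤ c * (2 : ℝ) ^ α →
                sobolevSq k (fun n => u t n - if n = 0 then w * g 0 ω else 0)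
                  ≤ C * (2 : ℝ) ^ (-α))) ∧
        ∀ α : ℝ, (k : ℝ) + d < α → ∀ T : ℝ,
          0 < P {ω | ENNReal.ofReal T ≤ lifespan d p k (datum g α ω)}) ∧
    ∀ (T : ℝ) (u v : ℝ → (Fin d → ℤ) → ℂ), IsSolution d p k T u → IsSolution d p k T v →
      u 0 = v 0 → ∀ t ∈ Icc 0 T, u t = v t := by
  refine ⟨⟨fun θ hθ => ?_, fun θ hθ => ?_⟩, fun Ω _ P _ g hm hind hg => ⟨?_, fun α hα T => ?_⟩,
    fun T u v hu hv h0 t ht => ?_⟩
  · obtain ⟨κ, hκ, α₁, h⟩ := Vale.Agent.P139.Q836.prob2 d hp hp3 k hθ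
    exact ⟨κ, hκ, α₁, fun Ω _ P _ g hm _ hg α hα => h P g hm hg α hα⟩
  · obtain ⟨κ, hκ, α₁, h⟩ := Vale.Agent.P139.tail_main (d := d) hp hp3 k hθ
    exact ⟨κ, hκ, α₁, fun Ω _ P _ g hm _ hg α hα => h P g hm hg α hα⟩
  · exact Vale.Agent.P139.H203.ae_all P hp hp3 hd hk g hm hg
  · obtain ⟨m, rfl⟩ := hp
    have hm1 : 1 ≤ m := by omega
    rcases le_or_gt 0 T with hT | hT
    · exact Vale.Agent.P139.H203.prob_pos P hm1 g hm hind hg hα hT
    · have h := Vale.Agent.P139.H203.prob_pos P hm1 g hm hind hg hα (le_refl (0 : ℝ))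
      rw [ENNReal.ofReal_zero] at h
      rw [ENNReal.ofReal_of_nonpos hT.le]
      exact h
  · obtain ⟨m, rfl⟩ := hp
    exact Vale.Agent.P139.H203.unique hk hu hv h0 t ht

end Vale.Agent.Results.P139.WholeLife
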